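import Crest.Statements.S0170
import Crest.Agent.Box.Defs
import Crest.Agent.Box.PlanBase
import Crest.Agent.Box.Plan
import Crest.Agent.Box.Fabius
import Crest.Agent.Box.Flow

set_option autoImplicit false
open scoped ContDiff
open Crest.AnalysisR.BoxFlow
open Crest Crest.AnalysisR

namespace Crest.Agent.S0170

/-- A property that holds for all small positive rationals, for each member of a finite family,
holds for one positive rational simultaneously. -/
theorem exists_pos_forall_of_finite {ι : Type*} [Finite ι] (P : ι → ℚ → Prop)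
    (hP : ∀ x, ∃ ε : ℚ, 0 < ε ∧ ∀ η : ℚ, 0 < η → η ≤ ε → P x η) :
    ∃ η : ℚ, 0 < η ∧ ∀ x, P x η := by
  classical
  cases nonempty_fintype ι
  choose ε hε hεP using hP
  by_cases hne : Nonempty ι
  · have hu : (Finset.univ : Finset ι).Nonempty := Finset.univ_nonempty
    refine ⟨Finset.univ.inf' hu ε, ?_, fun x => ?_⟩
    · rw [Finset.lt_inf'_iff]
      exact fun x _ => hε x
    · refine hεP x _ ?_ (Finset.inf'_le _ (Finset.mem_univ x))
      rw [Finset.lt_inf'_iff]
      exact fun y _ => hε y
  · exact ⟨1, one_pos, fun x => (hne ⟨x⟩).elim⟩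

/-- The source boxes can be enlarged by a common small margin, and the target boxes by the
corresponding margins, keeping both families pairwise disjoint. -/
theorem exists_enlarge (n : ℕ) (a b h k : Fin n → Fin 3 → ℚ)
    (hh : ∀ i j, 0 < h i j) (hk : ∀ i j, 0 < k i j)
    (ha : Pairwise fun i i' => Disjoint (box (a i) (h i)) (box (a i') (h i')))
    (hb : Pairwise fun i i' => Disjoint (box (b i) (k i)) (box (b i') (k i'))) :
    ∃ η : ℚ, 0 < η ∧
      (Pairwise fun i i' => Disjoint (box (a i) (fun j => h i j + η))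
        (box (a i') (fun j => h i' j + η))) ∧
      (Pairwise fun i i' => Disjoint (box (b i) (fun j => k i j / h i j * (h i j + η)))
        (box (b i') (fun j => k i' j / h i' j * (h i' j + η)))) := by
  have key : ∃ η : ℚ, 0 < η ∧ ∀ p : Fin n × Fin n, p.1 ≠ p.2 →
      (Disjoint (box (a p.1) (fun j => h p.1 j + η)) (box (a p.2) (fun j => h p.2 j + η)) ∧
       Disjoint (box (b p.1) (fun j => k p.1 j / h p.1 j * (h p.1 j + η)))
        (box (b p.2) (fun j => k p.2 j / h p.2 j * (h p.2 j + η)))) := by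
    apply exists_pos_forall_of_finite
    rintro ⟨i, i'⟩
    by_cases hii : i = i'
    · exact ⟨1, one_pos, fun η _ _ hne => (hne hii).elim⟩
    · have h1 := (Crest.Agent.Box.box_disjoint_iff (a i) (h i) (a i') (h i') (hh i) (hh i')).1
        (ha hii)
      have h2 := (Crest.Agent.Box.box_disjoint_iff (b i) (k i) (b i') (k i') (hk i) (hk i')).1
        (hb hii)
      obtain ⟨j₁, hj₁⟩ := h1
      obtain ⟨j₂, hj₂⟩ := h2
      set g₁ : ℚ := |a i j₁ - a i' j₁| - (h i j₁ + h i' j₁) with hg₁
      set g₂ : ℚ := |b i j₂ - b i' j₂| - (k i j₂ + k i' j₂) with hg₂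
      have hg₁pos : 0 < g₁ := by rw [hg₁]; linarith
      have hg₂pos : 0 < g₂ := by rw [hg₂]; linarith
      set ρ : ℚ := k i j₂ / h i j₂ + k i' j₂ / h i' j₂ with hρ
      have hρpos : 0 < ρ := by
        rw [hρ]
        exact add_pos (div_pos (hk i j₂) (hh i j₂)) (div_pos (hk i' j₂) (hh i' j₂))
      refine ⟨min (g₁ / 4) (g₂ / (2 * ρ)), lt_min (by positivity) (by positivity), ?_⟩
      intro η hη0 hη _
      have hη1 : η ≤ g₁ / 4 := hη.trans (min_le_left _ _)
      have hη2 : η ≤ g₂ / (2 * ρ) := hη.trans (min_le_right _ _)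
      constructor
      · rw [Crest.Agent.Box.box_disjoint_iff _ _ _ _ (fun j => by have := hh i j; linarith)
          (fun j => by have := hh i' j; linarith)]
        refine ⟨j₁, ?_⟩
        show h i j₁ + η + (h i' j₁ + η) < |a i j₁ - a i' j₁|
        have : |a i j₁ - a i' j₁| = g₁ + (h i j₁ + h i' j₁) := by rw [hg₁]; ring
        rw [this]; linarith
      · rw [Crest.Agent.Box.box_disjoint_iff _ _ _ _
          (fun j => mul_pos (div_pos (hk i j) (hh i j)) (by have := hh i j; linarith))
          (fun j => mul_pos (div_pos (hk i' j) (hh i' j)) (by have := hh i' j; linarith))]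
        refine ⟨j₂, ?_⟩
        show k i j₂ / h i j₂ * (h i j₂ + η) + k i' j₂ / h i' j₂ * (h i' j₂ + η)
          < |b i j₂ - b i' j₂|
        have e1 : k i j₂ / h i j₂ * (h i j₂ + η) = k i j₂ + k i j₂ / h i j₂ * η := by
          have := (hh i j₂).ne'
          field_simp
        have e2 : k i' j₂ / h i' j₂ * (h i' j₂ + η) = k i' j₂ + k i' j₂ / h i' j₂ * η := by
          have := (hh i' j₂).ne'
          field_simp
        have e3 : |b i j₂ - b i' j₂| = g₂ + (k i j₂ + k i' j₂) := by rw [hg₂]; ring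
        have e4 : ρ * η ≤ g₂ / 2 := by
          have : ρ * η ≤ ρ * (g₂ / (2 * ρ)) := mul_le_mul_of_nonneg_left hη2 hρpos.le
          have e5 : ρ * (g₂ / (2 * ρ)) = g₂ / 2 := by
            have := hρpos.ne'
            field_simp
          linarith
        have e6 : k i j₂ / h i j₂ * η + k i' j₂ / h i' j₂ * η = ρ * η := by rw [hρ]; ring
        rw [e1, e2, e3]
        linarith
  obtain ⟨η, hη, hP⟩ := key
  exact ⟨η, hη, fun i i' hii => (hP (i, i') hii).1, fun i i' hii => (hP (i, i') hii).2⟩

/-- Finitely many pairwise disjoint rational boxes in 3-space are carried onto disjoint target boxes, each a translated determinant-one positive diagonal rescaling of its source, by the time-one flow of a smooth, compactly supported, effective, divergence-free velocity field active only in [1/4,3/4]. The flow equals the prescribed affine map on a neighbourhood of each source box. Effective: computably approximable mixed derivatives at rational points and computable global derivative bounds. -/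
theorem result
    (n : ℕ) (a b h k : Fin n → Fin 3 → ℚ)
    (hh : ∀ i j, 0 < h i j) (hk : ∀ i j, 0 < k i j)
    (ha : Pairwise fun i i' => Disjoint (box (a i) (h i)) (box (a i') (h i')))
    (hb : Pairwise fun i i' => Disjoint (box (b i) (k i)) (box (b i') (k i')))
    (hvol : ∀ i, ∏ j : Fin 3, k i j / h i j = 1) :
    ∃ (U : Field) (Φ : ℝ → (Fin 3 → ℝ) → (Fin 3 → ℝ)),
      ContDiff ℝ ∞ U ∧ HasCompactSupport U ∧ Effective U ∧
      (∀ p : ℝ × (Fin 3 → ℝ), p.1 ∉ Set.Icc (1 / 4 : ℝ) (3 / 4) → U p = 0) ∧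
      (∀ p : ℝ × (Fin 3 → ℝ), spaceDiv U p = 0) ∧ IsFlow U Φ ∧
      ∀ i : Fin n, ∃ O : Set (Fin 3 → ℝ), IsOpen O ∧ box (a i) (h i) ⊆ O ∧
        ∀ x ∈ O, Φ 1 x = fun j => (b i j : ℝ) + ((k i j / h i j : ℚ) : ℝ) * (x j - (a i j : ℝ)) := by
  obtain ⟨η, hη, ha', hb'⟩ := exists_enlarge n a b h k hh hk ha hb
  obtain ⟨s, hs⟩ := Crest.Agent.Box.exists_isStep
  have hh' : ∀ i j, 0 < h i j + η := fun i j => by have := hh i j; linarith
  have hk' : ∀ i j, 0 < k i j / h i j * (h i j + η) :=
    fun i j => mul_pos (div_pos (hk i j) (hh i j)) (hh' i j)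
  have hratio : ∀ i j, k i j / h i j * (h i j + η) / (h i j + η) = k i j / h i j := by
    intro i j
    have := (hh' i j).ne'
    field_simp
  have hvol' : ∀ i, ∏ j : Fin 3, k i j / h i j * (h i j + η) / (h i j + η) = 1 := by
    intro i
    rw [← hvol i]
    exact Finset.prod_congr rfl fun j _ => hratio i j
  obtain ⟨ms, hms⟩ := Crest.Agent.Box.exists_plan n a b (fun i j => h i j + η)
    (fun i j => k i j / h i j * (h i j + η)) hh' hk' ha' hb' hvol'
  obtain ⟨U, Φ, h1, h2, h3, h4, h5, h6, h7⟩ := Crest.Agent.Box.plan_flow hs ms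
  refine ⟨U, Φ, h1, h2, h3, h4, h5, h6, fun i => ?_⟩
  refine ⟨{x | ∀ j : Fin 3, |x j - (a i j : ℝ)| < ((h i j + η : ℚ) : ℝ)}, ?_, ?_, ?_⟩
  · have : {x : Fin 3 → ℝ | ∀ j : Fin 3, |x j - (a i j : ℝ)| < ((h i j + η : ℚ) : ℝ)} =
        ⋂ j : Fin 3, {x : Fin 3 → ℝ | |x j - (a i j : ℝ)| < ((h i j + η : ℚ) : ℝ)} := by
      ext x; simp
    rw [this]
    refine isOpen_iInter_of_finite fun j => ?_
    exact isOpen_lt (by fun_prop) continuous_const
  · intro x hx j
    have h1' : |x j - (a i j : ℝ)| ≤ (h i j : ℝ) := hx j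
    have h2' : ((h i j + η : ℚ) : ℝ) = (h i j : ℝ) + (η : ℝ) := by push_cast; ring
    have h3' : (0 : ℝ) < (η : ℝ) := by exact_mod_cast hη
    show |x j - (a i j : ℝ)| < ((h i j + η : ℚ) : ℝ)
    rw [h2']; linarith
  · intro x hx
    have hxb : x ∈ box (a i) (fun j => h i j + η) := fun j => le_of_lt (hx j)
    obtain ⟨ht, hr⟩ := hms i x hxb
    rw [h7 x ht, hr]
    funext j
    rw [hratio i j]

end Crest.Agent.S0170
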